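import Vale.Agent.P278B7.Defs2

open scoped ContDiff Manifold
open Vale.Agent.P278.StmtF Vale.Agent.P278.H837 Vale.Agent.P278B7

namespace Vale.Agent.Results.P278.AUniversalCover

universe u v

/-- **Beauville's splitting conjecture, for the universal covering in the ordinary topology.**
Let `X` be a connected complex manifold.
(1) `X` has a universal covering.
(2) Every universal covering `π : M → X` in the ordinary topology has a complex structure for which
`π` is a local biholomorphism, and (3) this structure is unique.
(4) Two universal coverings are biholomorphic over `X`, by exactly one map with a given value at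
one point.
(5) If `X` is compact Kähler and `T_X` is the direct sum of holomorphic subbundles `F i` such that the sums of all
subfamilies are integrable, then for every universal covering `π : M → X` there are
connected simply connected complex manifolds `Y i` and a biholomorphism `Φ : M → ∏ Y i` such that
`dΦ` maps `π^* F_i` onto `pr_i^* T_{Y i}`. -/
theorem result (E : Type) [NormedAddCommGroup E] [NormedSpace ℂ E] [FiniteDimensional ℂ E]
    (X : Type) [TopologicalSpace X] [T2Space X] [ConnectedSpace X] [ChartedSpace E X]
    [IsManifold 𝓘(ℂ, E) ω X] :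
    (∃ (M : Type) (_ : TopologicalSpace M) (π : M → X), IsUnivCover π) ∧
    (∀ (M : Type u) [TopologicalSpace M] (π : M → X), IsUnivCover π →
      (∃ _ : ChartedSpace E M, IsLift E π) ∧
      ∀ c c' : ChartedSpace E M, @IsLift E _ _ X _ _ M _ c π → @IsLift E _ _ X _ _ M _ c' π →
        @ContMDiff ℂ _ E _ _ E _ 𝓘(ℂ, E) M _ c E _ _ E _ 𝓘(ℂ, E) M _ c' ω id) ∧
    (∀ (M : Type u) [TopologicalSpace M] [ChartedSpace E M] (π : M → X)
      (M' : Type v) [TopologicalSpace M'] [ChartedSpace E M'] (π' : M' → X),
      IsUnivCover π → IsLift E π → IsUnivCover π' → IsLift E π' → ∀ m m', π m = π' m' →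
      ∃! e : Diffeomorph 𝓘(ℂ, E) 𝓘(ℂ, E) M M' ω, e m = m' ∧ π' ∘ e = π) ∧
    (CompactSpace X → ∀ h : Form E X, IsKahler h → ∀ (k : ℕ) (F : Fin k → Dist E X),
      IsSplitting F → ∀ (M : Type u) [TopologicalSpace M] [ChartedSpace E M] (π : M → X),
      IsUnivCover π → IsLift E π → IsProduct π F) :=
  ⟨exists_cover E X, fun _ _ _ h => ⟨exists_lift h, same_structure⟩,
    fun _ _ _ _ _ _ _ _ h l h' l' => unique_cover h l h' l',
    fun _ h hh _ F hF _ _ _ _ c l => (beauville h hh F hF c l).isProduct⟩

end Vale.Agent.Results.P278.AUniversalCover
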